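import Vale.Agent.P203.Bdl.B1

namespace Vale.Agent.Results.P203.TopDegree

open Vale.Agent.P203

theorem result {S : Type} [Fintype S] [LinearOrder S] (M : CoxeterMatrix S) (n : ℕ)
    (h : (∀ c : Cell M (n + 1) →₀ ℤ, nerveBdry M n c = 0 → c = 0) ∨
      (Fintype.card S = n + 2 ∧ ∃ a : S, ¬ Spherical M (Finset.univ.erase a))) :
    ∀ z : Chain M (ArtinGroup M) (n + 1), bdry M (artinGen M) n z = 0 → z = 0 := by
  rcases h with hL | ⟨hcard, a, ha⟩
  · exact fun z hz => top_vanishing M n hL z hz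
  · exact fun z hz => top_vanishing M n (nerve_no_top_cycle M n hcard a ha) z hz

end Vale.Agent.Results.P203.TopDegree
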